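import Mathlib

/-!
# P045: averaging over tuples of a finite set

Resampling one coordinate bounds the number of tuples with a property, and the number of pairs
with a property is the average over tuples.
-/

namespace Vale.P045.Baer.Pencil

open Finset Function

variable {α β : Type*} [Fintype α] [Fintype β] {t : ℕ}

/-- If every resampling of the coordinate `i` hits `P` at most `c` times, few tuples satisfy `P`. -/
lemma card_mul_le (P : (Fin t → α) → Prop) [DecidablePred P] (i : Fin t) (c : ℕ)
    (h : ∀ L, (univ.filter fun x => P (update L i x)).card ≤ c) :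
    (univ.filter P).card * Fintype.card α ≤ c * Fintype.card (Fin t → α) := by
  classical
  have e : ∑ L : Fin t → α, (univ.filter fun x => P (update L i x)).card =
      (univ.filter P).card * Fintype.card α := by
    let σ : (Fin t → α) × α → (Fin t → α) × α := fun z => (update z.1 i z.2, z.1 i)
    have hσ : Involutive σ := fun z => by simp [σ]
    calc ∑ L : Fin t → α, (univ.filter fun x => P (update L i x)).card
        = ∑ z : (Fin t → α) × α, if P (σ z).1 then 1 else 0 := by
          rw [Fintype.sum_prod_type]; simp [σ]
      _ = ∑ z : (Fin t → α) × α, if P z.1 then 1 else 0 :=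
          Equiv.sum_comp hσ.toPerm (fun z => if P z.1 then (1 : ℕ) else 0)
      _ = _ := by
          rw [Fintype.sum_prod_type, card_filter, sum_mul]
          refine sum_congr rfl fun L _ => ?_
          split_ifs <;> simp
  calc (univ.filter P).card * Fintype.card α
      = ∑ L : Fin t → α, (univ.filter fun x => P (update L i x)).card := e.symm
    _ ≤ ∑ _L : Fin t → α, c := sum_le_sum fun L _ => h L
    _ = _ := by simp [mul_comm]

/-- The sum of a function of one coordinate. -/
lemma sum_coord (φ : α → ℕ) (i : Fin t) :
    (∑ L : Fin t → α, φ (L i)) * Fintype.card α = Fintype.card (Fin t → α) * ∑ x, φ x := by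
  classical
  let σ : (Fin t → α) × α → (Fin t → α) × α := fun z => (update z.1 i z.2, z.1 i)
  have hσ : Involutive σ := fun z => by simp [σ]
  calc (∑ L : Fin t → α, φ (L i)) * Fintype.card α
      = ∑ z : (Fin t → α) × α, φ (z.1 i) := by
        rw [Fintype.sum_prod_type, sum_mul]
        exact sum_congr rfl fun L _ => by simp [mul_comm]
    _ = ∑ z : (Fin t → α) × α, φ ((σ z).1 i) :=
        (Equiv.sum_comp hσ.toPerm (fun z => φ (z.1 i))).symm
    _ = _ := by
        rw [Fintype.sum_prod_type]; simp [σ]

/-- **Averaging.** If all grids outside a small bad set have at least `a` cells with property `E`,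
pairs with `E` are frequent. -/
lemma avg (E : α → β → Prop) [∀ x y, Decidable (E x y)]
    (Bad : Finset ((Fin t → α) × (Fin t → β))) (a : ℝ)
    (h : ∀ z, z ∉ Bad →
      a ≤ ((univ.filter fun x : Fin t × Fin t => E (z.1 x.1) (z.2 x.2)).card : ℝ)) :
    a * ((Fintype.card ((Fin t → α) × (Fin t → β)) : ℝ) - Bad.card) *
        ((Fintype.card α : ℝ) * Fintype.card β) ≤
      (t : ℝ) ^ 2 * Fintype.card ((Fin t → α) × (Fin t → β)) *
        ((univ.filter fun p : α × β => E p.1 p.2).card : ℝ) := by
  classical
  set N : (Fin t → α) × (Fin t → β) → ℕ :=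
    fun z => (univ.filter fun x : Fin t × Fin t => E (z.1 x.1) (z.2 x.2)).card with hN
  have h1 : a * ((Fintype.card ((Fin t → α) × (Fin t → β)) : ℝ) - Bad.card) ≤
      ((∑ z, N z : ℕ) : ℝ) := by
    calc a * ((Fintype.card ((Fin t → α) × (Fin t → β)) : ℝ) - Bad.card)
        = ∑ _z ∈ Badᶜ, a := by
          rw [sum_const, nsmul_eq_mul, card_compl, Nat.cast_sub (card_le_univ _), mul_comm]
      _ ≤ ∑ z ∈ Badᶜ, (N z : ℝ) := sum_le_sum fun z hz => h z (mem_compl.1 hz)
      _ ≤ ∑ z, (N z : ℝ) :=
          sum_le_sum_of_subset_of_nonneg (subset_univ _) fun z _ _ => Nat.cast_nonneg _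
      _ = _ := by push_cast; rfl
  have h2 : (∑ z, N z) * (Fintype.card α * Fintype.card β) =
      t ^ 2 * Fintype.card ((Fin t → α) × (Fin t → β)) *
        (univ.filter fun p : α × β => E p.1 p.2).card := by
    have hcell : ∀ x : Fin t × Fin t,
        (∑ z : (Fin t → α) × (Fin t → β), if E (z.1 x.1) (z.2 x.2) then 1 else 0) *
          (Fintype.card α * Fintype.card β) =
        Fintype.card ((Fin t → α) × (Fin t → β)) *
          (univ.filter fun p : α × β => E p.1 p.2).card := by
      intro x
      have hb : ∀ u : α, (∑ M : Fin t → β, if E u (M x.2) then 1 else 0) * Fintype.card β =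
          Fintype.card (Fin t → β) * ∑ v, if E u v then 1 else 0 :=
        fun u => sum_coord (fun v => if E u v then 1 else 0) x.2
      rw [Fintype.sum_prod_type]
      calc (∑ L : Fin t → α, ∑ M : Fin t → β, if E (L x.1) (M x.2) then 1 else 0) *
            (Fintype.card α * Fintype.card β)
          = (∑ L : Fin t → α, (∑ M : Fin t → β, if E (L x.1) (M x.2) then 1 else 0) *
              Fintype.card β) * Fintype.card α := by rw [← sum_mul]; ring
        _ = Fintype.card (Fin t → β) *
              ((∑ L : Fin t → α, ∑ v, if E (L x.1) v then 1 else 0) * Fintype.card α) := by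
            simp only [hb, ← mul_sum]; ring
        _ = _ := by
            rw [sum_coord (fun u => ∑ v, if E u v then 1 else 0) x.1, card_filter,
              Fintype.sum_prod_type, Fintype.card_prod]
            ring
    simp only [hN, card_filter]
    rw [sum_comm, sum_mul, sum_congr rfl fun x _ => hcell x, sum_const]
    rw [smul_eq_mul, card_univ, Fintype.card_prod, Fintype.card_fin, card_filter]; ring
  calc a * ((Fintype.card ((Fin t → α) × (Fin t → β)) : ℝ) - Bad.card) *
        ((Fintype.card α : ℝ) * Fintype.card β)
      ≤ ((∑ z, N z : ℕ) : ℝ) * ((Fintype.card α : ℝ) * Fintype.card β) :=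
        mul_le_mul_of_nonneg_right h1 (by positivity)
    _ = _ := by exact_mod_cast h2

end Vale.P045.Baer.Pencil
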